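import Mathlib

/-!
# P339: 2-to-1 games with alphabets of sizes 4 and 2 are affine over the field with two elements

Helper file for the hand-in `P339.AlphabetTwoAffine`.
-/

namespace Vale.Agent.Lib.P339.H75

open Finset BigOperators

/-- The two bits of a label in the alphabet of size four. -/
def phi : Fin 4 → ZMod 2 × ZMod 2 := ![(0, 0), (0, 1), (1, 0), (1, 1)]

/-- The bit of a label in the alphabet of size two. -/
def psi : Fin 2 → ZMod 2 := ![0, 1]

/-- The coefficient vector of the affine form attached to a map between the two alphabets. -/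
def Lf (π : Fin 4 → Fin 2) : ZMod 2 × ZMod 2 := (psi (π 2) + psi (π 0), psi (π 1) + psi (π 0))

/-- The constant of the affine form attached to a map between the two alphabets. -/
def Cf (π : Fin 4 → Fin 2) : ZMod 2 := psi (π 0)

theorem phi_bij : Function.Bijective phi := by decide

theorem psi_bij : Function.Bijective psi := by decide

/-- Every 2-to-1 map from the alphabet of size four to the alphabet of size two is, in the bit
coordinates, the zero set of one affine form with nonzero coefficient vector. -/
theorem core : ∀ π : Fin 4 → Fin 2,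
    (∀ b : Fin 2, (Finset.univ.filter (fun a => π a = b)).card = 2) →
      Lf π ≠ 0 ∧ ∀ (a : Fin 4) (b : Fin 2),
        (π a = b ↔ (Lf π).1 * (phi a).1 + (Lf π).2 * (phi a).2 + psi b = Cf π) := by
  decide

/-- Labelings satisfying a family of guarded constraints correspond to solutions of the guarded
linear system. -/
theorem game_iff (U V E : Type) (src : E → U) (tgt : E → V) (π : E → Fin 4 → Fin 2)
    (h2 : ∀ (e : E) (b : Fin 2), (Finset.univ.filter (fun a => π e a = b)).card = 2)
    (G : E → Prop) :
    (∃ (A : U → Fin 4) (B : V → Fin 2), ∀ e, G e → π e (A (src e)) = B (tgt e)) ↔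
      ∃ (x y : U → ZMod 2) (z : V → ZMod 2),
        ∀ e, G e → (Lf (π e)).1 * x (src e) + (Lf (π e)).2 * y (src e) + z (tgt e) = Cf (π e) := by
  constructor
  · rintro ⟨A, B, h⟩
    refine ⟨fun u => (phi (A u)).1, fun u => (phi (A u)).2, fun v => psi (B v), fun e hG => ?_⟩
    exact ((core (π e) (h2 e)).2 (A (src e)) (B (tgt e))).mp (h e hG)
  · rintro ⟨x, y, z, h⟩
    have hφ : ∀ p : ZMod 2 × ZMod 2, ∃ a : Fin 4, phi a = p := phi_bij.2
    have hψ : ∀ c : ZMod 2, ∃ b : Fin 2, psi b = c := psi_bij.2
    choose A hA using fun u : U => hφ (x u, y u)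
    choose B hB using fun v : V => hψ (z v)
    refine ⟨A, B, fun e hG => ?_⟩
    refine ((core (π e) (h2 e)).2 (A (src e)) (B (tgt e))).mpr ?_
    rw [hA (src e), hB (tgt e)]
    exact h e hG

/-- A probability vector gives total mass one to a set of indices exactly when every index of
positive mass lies in the set. -/
theorem mass_one_iff {E : Type} [Fintype E] (μ : E → ℝ) (h0 : ∀ e, 0 ≤ μ e)
    (h1 : ∑ e, μ e = 1) (S : E → Prop) [DecidablePred S] :
    ∑ e ∈ Finset.univ.filter S, μ e = 1 ↔ ∀ e, μ e ≠ 0 → S e := by
  have hsplit : ∑ e ∈ Finset.univ.filter S, μ e + ∑ e ∈ Finset.univ.filter (fun e => ¬ S e), μ e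
      = 1 := by
    rw [Finset.sum_filter_add_sum_filter_not, h1]
  have hz : ∑ e ∈ Finset.univ.filter (fun e => ¬ S e), μ e = 0 ↔
      ∀ e ∈ Finset.univ.filter (fun e => ¬ S e), μ e = 0 :=
    Finset.sum_eq_zero_iff_of_nonneg (fun e _ => h0 e)
  constructor
  · intro h e hne
    by_contra hS
    have h3 : ∑ e ∈ Finset.univ.filter (fun e => ¬ S e), μ e = 0 := by linarith
    exact hne (hz.mp h3 e (Finset.mem_filter.mpr ⟨Finset.mem_univ e, hS⟩))
  · intro h
    have h3 : ∑ e ∈ Finset.univ.filter (fun e => ¬ S e), μ e = 0 := by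
      refine hz.mpr (fun e he => ?_)
      by_contra hne
      exact (Finset.mem_filter.mp he).2 (h e hne)
    linarith

end Vale.Agent.Lib.P339.H75
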